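import Vale.Agent.P038.S476.Star

/-!
# P038: the two-layer exchange theorem and the contradiction (unit weights)
-/

open Finset
open scoped Classical

namespace Vale.Agent.P038.S476

variable {V : Type*} [Fintype V]

/-- closed out-neighbourhood of a set -/
noncomputable def NN (R : V → V → Prop) (X : Finset V) : Finset V :=
  univ.filter fun z => ∃ x ∈ X, R x z

theorem mem_NN {R : V → V → Prop} {X : Finset V} {z : V} : z ∈ NN R X ↔ ∃ x ∈ X, R x z := by
  simp [NN]

/-- number of pairs satisfying a relation -/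
noncomputable def cnt (p : V → V → Prop) : ℕ :=
  (univ.filter fun q : V × V => p q.1 q.2).card

theorem cnt_row (p : V → V → Prop) : cnt p = ∑ a, (univ.filter fun x => p a x).card := by
  unfold cnt
  simp only [Finset.card_filter]
  rw [Fintype.sum_prod_type]

theorem cnt_col (p : V → V → Prop) : cnt p = ∑ x, (univ.filter fun a => p a x).card := by
  unfold cnt
  simp only [Finset.card_filter]
  rw [Fintype.sum_prod_type_right]

theorem cnt_split (p q : V → V → Prop) (h : ∀ a x, p a x → q a x) :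
    cnt q = cnt p + cnt (fun a x => q a x ∧ ¬ p a x) := by
  unfold cnt
  rw [← Finset.card_union_of_disjoint]
  · congr 1
    ext z
    simp only [mem_union, mem_filter, mem_univ, true_and]
    constructor
    · intro hz
      by_cases hp : p z.1 z.2
      · exact Or.inl hp
      · exact Or.inr ⟨hz, hp⟩
    · rintro (hz | hz)
      · exact h _ _ hz
      · exact hz.1
  · rw [Finset.disjoint_left]
    intro z hz hz'
    simp only [mem_filter, mem_univ, true_and] at hz hz'
    exact hz'.2 hz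

theorem cnt_three (p q r s : V → V → Prop) (hp : ∀ a x, p a x → s a x)
    (hq : ∀ a x, q a x → s a x) (hr : ∀ a x, r a x → s a x)
    (hpq : ∀ a x, p a x → q a x → False) (hpr : ∀ a x, p a x → r a x → False)
    (hqr : ∀ a x, q a x → r a x → False) : cnt p + cnt q + cnt r ≤ cnt s := by
  unfold cnt
  rw [← Finset.card_union_of_disjoint, ← Finset.card_union_of_disjoint]
  · apply Finset.card_le_card
    intro z hz
    simp only [mem_union, mem_filter, mem_univ, true_and] at hz ⊢
    rcases hz with (h | h) | h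
    · exact hp _ _ h
    · exact hq _ _ h
    · exact hr _ _ h
  · rw [Finset.disjoint_left]
    intro z hz hz'
    simp only [mem_union, mem_filter, mem_univ, true_and] at hz hz'
    rcases hz with h | h
    · exact hpr _ _ h hz'
    · exact hqr _ _ h hz'
  · rw [Finset.disjoint_left]
    intro z hz hz'
    simp only [mem_filter, mem_univ, true_and] at hz hz'
    exact hpq _ _ hz hz'

/-- admissible pairs -/
def Adm (R : V → V → Prop) (P M : V → Finset V) : Prop :=
  (∀ a x, R a x → x ∈ P a) ∧ (∀ a, P a ⊆ M a) ∧ (∀ a x, R x a → x ∈ M a → x = a)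

/-- row part of the cost -/
noncomputable def rowc (R : V → V → Prop) (P : V → Finset V) (a : V) : ℕ :=
  (NN R (P a) \ P a).card

/-- column part of the cost -/
noncomputable def colc (R : V → V → Prop) (M : V → Finset V) (x : V) : ℕ :=
  (univ.filter fun a => x ∈ M a ∧ ∃ s, R s a ∧ x ∉ M s).card

noncomputable def cost (R : V → V → Prop) (P M : V → Finset V) : ℕ :=
  ∑ a, rowc R P a + ∑ x, colc R M x

theorem exists_min (R : V → V → Prop) (hR : ∀ a, R a a) (hor : ∀ a b, R a b → R b a → a = b) :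
    ∃ P M, Adm R P M ∧ ∀ P' M', Adm R P' M' → cost R P M ≤ cost R P' M' := by
  have hne : ((univ : Finset ((V → Finset V) × (V → Finset V))).filter
      fun z => Adm R z.1 z.2).Nonempty := by
    refine ⟨(fun a => univ.filter fun x => R a x, fun a => univ.filter fun x => R a x),
      Finset.mem_filter.mpr ⟨mem_univ _, ?_, ?_, ?_⟩⟩
    · intro a x h
      simpa using h
    · intro a
      exact Finset.Subset.refl _
    · intro a x h1 h2
      exact hor _ _ h1 (by simpa using h2)
  obtain ⟨z, hz, hmin⟩ := Finset.exists_min_image _ (fun z => cost R z.1 z.2) hne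
  rw [mem_filter] at hz
  refine ⟨z.1, z.2, hz.2, fun P' M' h => ?_⟩
  exact hmin (P', M') (by rw [mem_filter]; exact ⟨mem_univ _, h⟩)

/-- row Hall condition at a minimum -/
theorem hall_row (R : V → V → Prop) (hR : ∀ a, R a a) (P M : V → Finset V) (hA : Adm R P M)
    (hmin : ∀ P' M', Adm R P' M' → cost R P M ≤ cost R P' M') (a : V) (T : Finset V)
    (hT : ∀ x ∈ T, x ∈ M a ∧ x ∉ P a) :
    T.card ≤ (NN R T \ NN R (P a)).card := by
  set P' : V → Finset V := Function.update P a (P a ∪ T) with hP'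
  have hA' : Adm R P' M := by
    refine ⟨?_, ?_, hA.2.2⟩
    · intro b x h
      by_cases hb : b = a
      · subst hb
        rw [hP', Function.update_self]
        exact mem_union_left _ (hA.1 _ _ h)
      · rw [hP', Function.update_of_ne hb]
        exact hA.1 _ _ h
    · intro b
      by_cases hb : b = a
      · subst hb
        rw [hP', Function.update_self]
        apply Finset.union_subset (hA.2.1 _)
        intro x hx
        exact (hT x hx).1
      · rw [hP', Function.update_of_ne hb]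
        exact hA.2.1 _
  have h := hmin P' M hA'
  unfold cost at h
  have h2 : ∑ b, rowc R P b ≤ ∑ b, rowc R P' b := by omega
  rw [← Finset.add_sum_erase _ _ (mem_univ a), ← Finset.add_sum_erase _ _ (mem_univ a)] at h2
  have h3 : ∑ b ∈ univ.erase a, rowc R P' b = ∑ b ∈ univ.erase a, rowc R P b := by
    apply Finset.sum_congr rfl
    intro b hb
    rw [mem_erase] at hb
    unfold rowc
    rw [hP', Function.update_of_ne hb.1]
  rw [h3] at h2
  have h4 : rowc R P a ≤ rowc R P' a := by omega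
  unfold rowc at h4
  rw [hP', Function.update_self] at h4
  have sub1 : P a ⊆ NN R (P a) := fun x hx => mem_NN.mpr ⟨x, hx, hR x⟩
  have sub2 : P a ∪ T ⊆ NN R (P a ∪ T) := fun x hx => mem_NN.mpr ⟨x, hx, hR x⟩
  have e1 := Finset.card_sdiff_add_card_eq_card sub1
  have e2 := Finset.card_sdiff_add_card_eq_card sub2
  have e3 : (P a ∪ T).card = (P a).card + T.card := by
    apply Finset.card_union_of_disjoint
    rw [Finset.disjoint_left]
    intro x hx hx'
    exact (hT x hx').2 hx
  have e4 : (NN R (P a ∪ T)).card = (NN R (P a)).card + (NN R T \ NN R (P a)).card := by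
    rw [← Finset.card_union_of_disjoint Finset.disjoint_sdiff]
    congr 1
    ext y
    simp only [mem_union, mem_sdiff, mem_NN]
    constructor
    · rintro ⟨x, hx | hx, hxy⟩
      · exact Or.inl ⟨x, hx, hxy⟩
      · by_cases h5 : ∃ x ∈ P a, R x y
        · exact Or.inl h5
        · exact Or.inr ⟨⟨x, hx, hxy⟩, h5⟩
    · rintro (⟨x, hx, hxy⟩ | ⟨⟨x, hx, hxy⟩, _⟩)
      · exact ⟨x, Or.inl hx, hxy⟩
      · exact ⟨x, Or.inr hx, hxy⟩
  omega

/-- column Hall condition at a minimum -/
theorem hall_col (R : V → V → Prop) (hR : ∀ a, R a a) (P M : V → Finset V) (hA : Adm R P M)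
    (hmin : ∀ P' M', Adm R P' M' → cost R P M ≤ cost R P' M') (x : V) (S : Finset V)
    (hS : ∀ a ∈ S, x ∈ M a ∧ x ∉ P a) :
    S.card ≤ (univ.filter fun a' => (∀ s, R s a' → x ∈ M s) ∧ ∃ a ∈ S, R a a').card := by
  set M' : V → Finset V := fun a => if a ∈ S then (M a).erase x else M a with hM'
  have hsub : ∀ a, M' a ⊆ M a := by
    intro a
    rw [hM']
    by_cases ha : a ∈ S
    · simp only [ha, if_true]
      exact Finset.erase_subset _ _
    · simp only [ha, if_false]
      exact Finset.Subset.refl _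
  have hmem : ∀ a y, y ∈ M' a ↔ y ∈ M a ∧ ¬ (a ∈ S ∧ y = x) := by
    intro a y
    rw [hM']
    by_cases ha : a ∈ S
    · simp only [ha, if_true, mem_erase, true_and]
      tauto
    · simp [ha]
  have hA' : Adm R P M' := by
    refine ⟨hA.1, ?_, ?_⟩
    · intro a y hy
      rw [hmem]
      refine ⟨hA.2.1 a hy, ?_⟩
      rintro ⟨ha, rfl⟩
      exact (hS a ha).2 hy
    · intro a y h1 h2
      exact hA.2.2 a y h1 (hsub a h2)
  have h := hmin P M' hA'
  unfold cost at h
  have h2 : ∑ b, colc R M b ≤ ∑ b, colc R M' b := by omega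
  rw [← Finset.add_sum_erase _ _ (mem_univ x), ← Finset.add_sum_erase _ _ (mem_univ x)] at h2
  have h3 : ∑ b ∈ univ.erase x, colc R M' b = ∑ b ∈ univ.erase x, colc R M b := by
    apply Finset.sum_congr rfl
    intro b hb
    rw [mem_erase] at hb
    have hb' : ∀ a, b ∈ M' a ↔ b ∈ M a := by
      intro a
      rw [hmem]
      tauto
    unfold colc
    simp only [hb']
  rw [h3] at h2
  have h4 : colc R M x ≤ colc R M' x := by omega
  unfold colc at h4
  set old : Finset V := univ.filter fun a => x ∈ M a ∧ ∃ s, R s a ∧ x ∉ M s with hold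
  set Z : Finset V := univ.filter fun a' => (∀ s, R s a' → x ∈ M s) ∧ ∃ a ∈ S, R a a' with hZ
  have hnew : (univ.filter fun a => x ∈ M' a ∧ ∃ s, R s a ∧ x ∉ M' s) ⊆ (old ∪ Z) \ S := by
    intro a ha
    simp only [mem_filter, mem_univ, true_and, hmem, mem_sdiff, mem_union, hold, hZ] at ha ⊢
    obtain ⟨⟨h1, h2⟩, s, hs, h3⟩ := ha
    refine ⟨?_, fun h => h2 ⟨h, trivial⟩⟩
    by_cases h5 : ∃ s, R s a ∧ x ∉ M s
    · exact Or.inl ⟨h1, h5⟩
    · right
      push Not at h5
      refine ⟨fun s hs => h5 s hs, s, ?_, hs⟩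
      by_contra hsS
      exact h3 ⟨h5 s hs, fun h => hsS h.1⟩
  have hSsub : S ⊆ old ∪ Z := by
    intro a ha
    simp only [mem_union, mem_filter, mem_univ, true_and, hold, hZ]
    by_cases h5 : ∃ s, R s a ∧ x ∉ M s
    · exact Or.inl ⟨(hS a ha).1, h5⟩
    · right
      push Not at h5
      exact ⟨fun s hs => h5 s hs, a, ha, hR a⟩
  have e1 := Finset.card_le_card hnew
  have e2 := Finset.card_sdiff_add_card_eq_card hSsub
  have e3 := Finset.card_union_le old Z
  omega

/-- The main inequality. -/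
theorem main_ineq (R : V → V → Prop) (hR : ∀ a, R a a) (P M : V → Finset V) (hA : Adm R P M)
    (hmin : ∀ P' M', Adm R P' M' → cost R P M ≤ cost R P' M') (X Y : V → Finset V)
    (hX : ∀ a x, x ∈ X a ↔ ∀ s, R s a → x ∈ P s)
    (hY : ∀ b a, a ∈ Y b ↔ (a = b ∨ ∀ x, R x b → x ∉ M a)) :
    ∑ a, (NN R (X a) \ X a).card + ∑ b, (NN R (Y b) \ Y b).card ≤ cost R P M := by
  obtain ⟨hA1, hA2, hA3⟩ := hA
  -- data for the star lemma
  obtain ⟨al, hal⟩ : ∃ al : V → Finset V, ∀ a' s, s ∈ al a' ↔ R s a' :=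
    ⟨fun a' => univ.filter fun s => R s a', fun a' s => by simp⟩
  obtain ⟨eta, heta⟩ : ∃ eta : V → Finset V, ∀ y x, x ∈ eta y ↔ R x y :=
    ⟨fun y => univ.filter fun x => R x y, fun y x => by simp⟩
  obtain ⟨xi, hxi⟩ : ∃ xi : V → Finset V, ∀ a' x, x ∈ xi a' ↔ ∀ s, R s a' → x ∈ M s :=
    ⟨fun a' => univ.filter fun x => ∀ s, R s a' → x ∈ M s, fun a' x => by simp⟩
  obtain ⟨be, hbe⟩ : ∃ be : V → Finset V, ∀ y a, a ∈ be y ↔ ∀ x, R x y → x ∉ P a :=
    ⟨fun y => univ.filter fun a => ∀ x, R x y → x ∉ P a, fun y a => by simp⟩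
  have hstar := star al xi be eta (fun a x => x ∈ M a) (fun a x => x ∈ P a)
    (by
      intro a' x a h1 h2
      simp only [hxi, hal, mem_filter, mem_univ, true_and] at h1 h2
      exact h1 a h2)
    (by
      intro a y x h1 h2
      simp only [hbe, heta, mem_filter, mem_univ, true_and] at h1 h2
      exact h1 x h2)
    (by
      intro a T hT
      refine le_trans (hall_row R hR P M ⟨hA1, hA2, hA3⟩ hmin a T hT) ?_
      apply Finset.card_le_card
      intro y hy
      simp only [mem_sdiff, mem_NN, hbe, heta, mem_filter, mem_univ, true_and] at hy ⊢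
      refine ⟨fun x hx hxP => hy.2 ⟨x, hxP, hx⟩, hy.1⟩)
    (by
      intro x S hS
      refine le_trans (hall_col R hR P M ⟨hA1, hA2, hA3⟩ hmin x S hS) ?_
      apply Finset.card_le_card
      intro y hy
      simp only [hxi, hal, mem_filter, mem_univ, true_and] at hy ⊢
      exact hy)
  -- relations
  have eGl : ∑ x, (Gl al xi (fun a x => x ∈ M a) (fun a x => x ∈ P a) x).card =
      cnt (fun a' x => (∀ s, R s a' → x ∈ M s) ∧ ¬ (∀ s, R s a' → x ∈ P s)) := by
    rw [cnt_col]
    apply Finset.sum_congr rfl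
    intro x _
    congr 1
    ext a'
    simp only [Gl, hxi, hal, mem_filter, mem_univ, true_and]
    constructor
    · rintro ⟨h1, a, h2, h3, h4⟩
      exact ⟨h1, fun h => h4 (h a h2)⟩
    · rintro ⟨h1, h2⟩
      push Not at h2
      obtain ⟨a, h2, h3⟩ := h2
      exact ⟨h1, a, h2, h1 a h2, h3⟩
  have eGr : ∑ y, (Gr be eta (fun a x => x ∈ M a) (fun a x => x ∈ P a) y).card =
      cnt (fun a y => (∃ x, R x y ∧ x ∈ M a) ∧ ¬ (∃ x, R x y ∧ x ∈ P a)) := by
    rw [cnt_col]
    apply Finset.sum_congr rfl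
    intro y _
    congr 1
    ext a
    simp only [Gr, hbe, heta, mem_filter, mem_univ, true_and]
    constructor
    · rintro ⟨h1, x, h2, h3, h4⟩
      exact ⟨⟨x, h2, h3⟩, fun ⟨x', h5, h6⟩ => h1 x' h5 h6⟩
    · rintro ⟨⟨x, h2, h3⟩, h1⟩
      push Not at h1
      exact ⟨h1, x, h2, h3, h1 x h2⟩
  have eGc : ∑ x, (Gc (fun a x => x ∈ M a) (fun a x => x ∈ P a) x).card =
      cnt (fun a x => x ∈ M a ∧ ¬ x ∈ P a) := by
    rw [cnt_col]
    apply Finset.sum_congr rfl
    intro x _
    congr 1
    ext a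
    simp only [Gc, mem_filter, mem_univ, true_and]
  have eK : ∑ y, (Kc al xi be eta y).card =
      cnt (fun a' y => (∃ a, R a a' ∧ ∀ x, R x y → x ∉ P a) ∧
        ∃ x, (∀ s, R s a' → x ∈ M s) ∧ R x y) := by
    rw [cnt_col]
    apply Finset.sum_congr rfl
    intro y _
    congr 1
    ext a'
    simp only [Kc, hxi, hal, hbe, heta, mem_filter, mem_univ, true_and]
  rw [eGl, eGr, eGc, eK] at hstar
  -- the splits
  have sM := cnt_split (fun a x => x ∈ P a) (fun a x => x ∈ M a) (fun a x h => hA2 a h)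
  have sl := cnt_split (fun a' x => ∀ s, R s a' → x ∈ P s) (fun a' x => ∀ s, R s a' → x ∈ M s)
    (fun a x h s hs => hA2 s (h s hs))
  have sr := cnt_split (fun a y => ∃ x, R x y ∧ x ∈ P a) (fun a y => ∃ x, R x y ∧ x ∈ M a)
    (fun a y ⟨x, h1, h2⟩ => ⟨x, h1, hA2 a h2⟩)
  -- costs
  have c1 : ∑ a, rowc R P a = cnt (fun a y => (∃ x, R x y ∧ x ∈ P a) ∧ ¬ y ∈ P a) := by
    rw [cnt_row]
    apply Finset.sum_congr rfl
    intro a _
    unfold rowc
    congr 1
    ext y
    simp only [mem_sdiff, mem_NN, mem_filter, mem_univ, true_and]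
    constructor
    · rintro ⟨⟨x, h1, h2⟩, h3⟩
      exact ⟨⟨x, h2, h1⟩, h3⟩
    · rintro ⟨⟨x, h1, h2⟩, h3⟩
      exact ⟨⟨x, h2, h1⟩, h3⟩
  have c1' := cnt_split (fun a y => y ∈ P a) (fun a y => ∃ x, R x y ∧ x ∈ P a)
    (fun a y h => ⟨y, hR y, h⟩)
  have c2 : ∑ x, colc R M x = cnt (fun a x => x ∈ M a ∧ ¬ ∀ s, R s a → x ∈ M s) := by
    rw [cnt_col]
    apply Finset.sum_congr rfl
    intro x _
    unfold colc
    congr 1
    ext a
    simp only [mem_filter, mem_univ, true_and]
    push Not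
    rfl
  have c2' := cnt_split (fun a x => ∀ s, R s a → x ∈ M s) (fun a x => x ∈ M a)
    (fun a x h => h a (hR a))
  have d1 : ∑ a, (NN R (X a) \ X a).card =
      cnt (fun a y => (∃ x, (∀ s, R s a → x ∈ P s) ∧ R x y) ∧ ¬ (∀ s, R s a → y ∈ P s)) := by
    rw [cnt_row]
    apply Finset.sum_congr rfl
    intro a _
    congr 1
    ext y
    simp only [mem_sdiff, mem_NN, mem_filter, mem_univ, true_and, hX]
  have d1' := cnt_split (fun a y => ∀ s, R s a → y ∈ P s)
    (fun a y => ∃ x, (∀ s, R s a → x ∈ P s) ∧ R x y) (fun a y h => ⟨y, h, hR y⟩)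
  have d2 : ∑ b, (NN R (Y b) \ Y b).card = cnt (fun a b => a ∈ NN R (Y b) ∧ ¬ a ∈ Y b) := by
    rw [cnt_col]
    apply Finset.sum_congr rfl
    intro b _
    congr 1
    ext a
    simp only [mem_sdiff, mem_filter, mem_univ, true_and]
  have three := cnt_three (fun a b => a ∈ NN R (Y b) ∧ ¬ a ∈ Y b)
    (fun a y => ∃ x, (∀ s, R s a → x ∈ P s) ∧ R x y)
    (fun a' y => (∃ a, R a a' ∧ ∀ x, R x y → x ∉ P a) ∧
        ∃ x, (∀ s, R s a' → x ∈ M s) ∧ R x y)
    (fun a y => ∃ x, R x y ∧ x ∈ M a)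
    (by
      intro a b h
      have h2 := h.2
      rw [hY] at h2
      push Not at h2
      exact h2.2)
    (by
      rintro a y ⟨x, h1, h2⟩
      exact ⟨x, h2, hA2 a (h1 a (hR a))⟩)
    (by
      rintro a' y ⟨_, x, h1, h2⟩
      exact ⟨x, h2, h1 a' (hR a')⟩)
    (by
      rintro a b ⟨h1, h2⟩ ⟨x, h3, h4⟩
      rw [mem_NN] at h1
      obtain ⟨s, hs, hsa⟩ := h1
      rw [hY] at h2 hs
      push Not at h2
      rcases hs with rfl | hs
      · -- `s = b`, `R b a`
        have hx : x ∈ M s := hA2 _ (h3 s hsa)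
        have := hA3 s x h4 hx
        subst this
        have hx2 : x ∈ M a := hA2 _ (h3 a (hR a))
        exact h2.1 (hA3 a x hsa hx2).symm
      · exact hs x h4 (hA2 _ (h3 s hsa)))
    (by
      rintro a b ⟨h1, h2⟩ ⟨_, x, h3, h4⟩
      rw [mem_NN] at h1
      obtain ⟨s, hs, hsa⟩ := h1
      rw [hY] at h2 hs
      push Not at h2
      rcases hs with rfl | hs
      · have hx : x ∈ M s := h3 s hsa
        have := hA3 s x h4 hx
        subst this
        have hx2 : x ∈ M a := h3 a (hR a)
        exact h2.1 (hA3 a x hsa hx2).symm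
      · exact hs x h4 (h3 s hsa))
    (by
      rintro a' y ⟨x, h1, h2⟩ ⟨⟨a, h3, h4⟩, _⟩
      exact h4 x h2 (h1 a h3))
  unfold cost
  rw [c1, c2, d1, d2]
  omega

/-- **The contradiction.** -/
theorem no_G_unit [Nonempty V] (R : V → V → Prop) (hR : ∀ a, R a a)
    (hor : ∀ a b, R a b → R b a → a = b) (hout : ∀ a, ∃ b, R a b ∧ b ≠ a)
    (hG : ∀ X : Finset V, (NN R X \ X).Nonempty →
      (NN R (NN R X) \ NN R X).card < (NN R X \ X).card) : False := by
  have hG0 : ∀ X : Finset V, (NN R (NN R X) \ NN R X).card ≤ (NN R X \ X).card := by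
    intro X
    by_cases h : (NN R X \ X).Nonempty
    · exact (hG X h).le
    · rw [Finset.not_nonempty_iff_eq_empty] at h
      have hs : NN R X ⊆ X := Finset.sdiff_eq_empty_iff_subset.mp h
      have hs2 : NN R (NN R X) ⊆ NN R X := by
        intro z hz
        rw [mem_NN] at hz ⊢
        obtain ⟨x, hx, hxz⟩ := hz
        exact ⟨x, hs hx, hxz⟩
      rw [Finset.sdiff_eq_empty_iff_subset.mpr hs2]
      simp
  obtain ⟨P, M, hA, hmin⟩ := exists_min R hR hor
  set X : V → Finset V := fun a => univ.filter fun x => ∀ s, R s a → x ∈ P s with hXd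
  set Y : V → Finset V := fun b => univ.filter fun a => (a = b ∨ ∀ x, R x b → x ∉ M a) with hYd
  have hX : ∀ a x, x ∈ X a ↔ ∀ s, R s a → x ∈ P s := by
    intro a x
    simp [hXd]
  have hY : ∀ b a, a ∈ Y b ↔ (a = b ∨ ∀ x, R x b → x ∉ M a) := by
    intro b a
    simp [hYd]
  have hmain := main_ineq R hR P M hA hmin X Y hX hY
  obtain ⟨hA1, hA2, hA3⟩ := hA
  -- legality
  have hXself : ∀ a, a ∈ X a := fun a => (hX a a).mpr fun s hs => hA1 s a hs
  have hYself : ∀ a, a ∈ Y a := fun a => (hY a a).mpr (Or.inl rfl)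
  have hleg : ∀ a b, b ∈ NN R (X a) → a ∈ NN R (Y b) → b = a := by
    intro a b h1 h2
    rw [mem_NN] at h1 h2
    obtain ⟨x, hx, hxb⟩ := h1
    obtain ⟨y, hy, hya⟩ := h2
    rw [hX] at hx
    rw [hY] at hy
    rcases hy with rfl | hy
    · -- `y = b`, `R b a`
      have h3 : x ∈ M y := hA2 _ (hx y hya)
      have h4 := hA3 y x hxb h3
      subst h4
      exact hA3 a x hya (hA2 _ (hx a (hR a)))
    · exact absurd (hA2 _ (hx y hya)) (hy x hxb)
  -- the new pair
  set P2 : V → Finset V := fun a => NN R (X a) with hP2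
  set M2 : V → Finset V := fun a => univ.filter fun b => (b = a ∨ a ∉ NN R (Y b)) with hM2
  have hM2m : ∀ a b, b ∈ M2 a ↔ (b = a ∨ a ∉ NN R (Y b)) := by
    intro a b
    simp [hM2]
  have hA' : Adm R P2 M2 := by
    refine ⟨?_, ?_, ?_⟩
    · intro a x h
      exact mem_NN.mpr ⟨a, hXself a, h⟩
    · intro a b hb
      rw [hM2m]
      by_cases hab : b = a
      · exact Or.inl hab
      · exact Or.inr fun h => hab (hleg a b hb h)
    · intro a x h1 h2
      rw [hM2m] at h2
      rcases h2 with h2 | h2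
      · exact h2
      · exact absurd (mem_NN.mpr ⟨x, hYself x, h1⟩) h2
  have h1 := hmin P2 M2 hA'
  have h2 : cost R P2 M2 ≤ ∑ a, (NN R (NN R (X a)) \ NN R (X a)).card +
      ∑ b, (NN R (NN R (Y b)) \ NN R (Y b)).card := by
    unfold cost
    apply add_le_add
    · exact le_refl _
    · apply Finset.sum_le_sum
      intro b _
      unfold colc
      apply Finset.card_le_card
      intro a ha
      simp only [mem_filter, mem_univ, true_and, hM2m] at ha
      obtain ⟨h3, s, hs, h4⟩ := ha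
      push Not at h4
      have hab : b ≠ a := by
        rintro rfl
        exact h4.1 (hA'.2.2 s b |> fun _ => by
          have hbP : b ∈ P2 s := mem_NN.mpr ⟨s, hXself s, hs⟩
          exact hleg s b hbP h4.2)
      rw [mem_sdiff]
      refine ⟨mem_NN.mpr ⟨s, h4.2, hs⟩, ?_⟩
      rcases h3 with h3 | h3
      · exact absurd h3 hab
      · exact h3
  -- strictness somewhere
  have hstrict : ∃ b, (NN R (X b) \ X b).Nonempty := by
    by_contra hcon
    push Not at hcon
    have hcl : ∀ b, NN R (X b) ⊆ X b := by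
      intro b
      have := hcon b
      exact Finset.sdiff_eq_empty_iff_subset.mp (by simpa using this)
    -- a minimal nonempty closed set
    have hne : ((univ : Finset (Finset V)).filter fun C => C.Nonempty ∧ NN R C ⊆ C).Nonempty := by
      refine ⟨univ, ?_⟩
      rw [mem_filter]
      exact ⟨mem_univ _, Finset.univ_nonempty, Finset.subset_univ _⟩
    obtain ⟨C, hC, hCmin⟩ := Finset.exists_min_image _ (fun C => C.card) hne
    rw [mem_filter] at hC
    obtain ⟨_, ⟨a, ha⟩, hCc⟩ := hC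
    obtain ⟨b, hab, hba⟩ := hout a
    have hbC : b ∈ C := hCc (mem_NN.mpr ⟨a, ha, hab⟩)
    have hin : X b ∩ C ∈ ((univ : Finset (Finset V)).filter
        fun C => C.Nonempty ∧ NN R C ⊆ C) := by
      rw [mem_filter]
      refine ⟨mem_univ _, ⟨b, mem_inter.mpr ⟨hXself b, hbC⟩⟩, ?_⟩
      intro z hz
      rw [mem_NN] at hz
      obtain ⟨x, hx, hxz⟩ := hz
      rw [mem_inter] at hx ⊢
      exact ⟨hcl b (mem_NN.mpr ⟨x, hx.1, hxz⟩), hCc (mem_NN.mpr ⟨x, hx.2, hxz⟩)⟩
    have hle := hCmin _ hin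
    have heq : X b ∩ C = C := Finset.eq_of_subset_of_card_le Finset.inter_subset_right hle
    have haX : a ∈ X b := by
      rw [← heq] at ha
      exact (mem_inter.mp ha).1
    have haM : a ∈ M b := hA2 _ ((hX b a).mp haX b (hR b))
    exact hba (hA3 b a hab haM).symm
  obtain ⟨b, hb⟩ := hstrict
  have h3 : ∑ a, (NN R (NN R (X a)) \ NN R (X a)).card < ∑ a, (NN R (X a) \ X a).card := by
    apply Finset.sum_lt_sum
    · intro a _
      exact hG0 _
    · exact ⟨b, mem_univ _, hG _ hb⟩
  have h4 : ∑ b, (NN R (NN R (Y b)) \ NN R (Y b)).card ≤ ∑ b, (NN R (Y b) \ Y b).card :=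
    Finset.sum_le_sum fun b _ => hG0 _
  omega

end Vale.Agent.P038.S476
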