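import Mathlib

/-!
# P038: the star lemma (unit weights)

Abstract form of the exchange lemma: for two nested relations `P ⊆ M` on `V × V` with gap
`G = M \ P`, the row Hall condition and the column Hall condition imply
`|G_l| + |G_r| ≤ |G| + |K|`.
-/

open Finset
open scoped Classical

namespace Vale.Agent.P038.S476

variable {V : Type*} [Fintype V]

/-- Merged Hall condition. -/
theorem merged (be eta : V → Finset V) (U W : V → V → Prop)
    (hU : ∀ a y x, a ∈ be y → x ∈ eta y → U a x)
    (hall : ∀ a (T : Finset V), (∀ x ∈ T, U a x ∧ W a x) →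
      T.card ≤ (univ.filter fun y => a ∈ be y ∧ ∃ x ∈ T, x ∈ eta y).card) :
    ∀ (L T : Finset V), (∀ x ∈ T, ∃ a ∈ L, U a x) → (∀ x ∈ T, ∀ a ∈ L, W a x) →
      T.card ≤ (univ.filter fun y => (∃ a ∈ L, a ∈ be y) ∧ ∃ x ∈ T, x ∈ eta y).card := by
  intro L
  induction L using Finset.induction_on with
  | empty =>
    intro T h1 _
    have : T = ∅ := by
      apply Finset.eq_empty_of_forall_notMem
      intro x hx
      obtain ⟨a, ha, _⟩ := h1 x hx
      simp at ha
    simp [this]
  | insert a1 L' ha1 ih =>
    intro T h1 h2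
    set T1 := T.filter fun x => U a1 x with hT1
    set T2 := T.filter fun x => ¬ U a1 x with hT2
    have e1 : T.card = T1.card + T2.card := by
      rw [hT1, hT2, Finset.card_filter_add_card_filter_not]
    have c1 : T1.card ≤ (univ.filter fun y => a1 ∈ be y ∧ ∃ x ∈ T1, x ∈ eta y).card := by
      apply hall
      intro x hx
      rw [hT1, mem_filter] at hx
      exact ⟨hx.2, h2 x hx.1 a1 (mem_insert_self _ _)⟩
    have c2 : T2.card ≤
        (univ.filter fun y => (∃ a ∈ L', a ∈ be y) ∧ ∃ x ∈ T2, x ∈ eta y).card := by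
      apply ih
      · intro x hx
        rw [hT2, mem_filter] at hx
        obtain ⟨a, ha, hax⟩ := h1 x hx.1
        rw [mem_insert] at ha
        rcases ha with rfl | ha
        · exact absurd hax hx.2
        · exact ⟨a, ha, hax⟩
      · intro x hx a ha
        rw [hT2, mem_filter] at hx
        exact h2 x hx.1 a (mem_insert_of_mem ha)
    have hd : Disjoint (univ.filter fun y => a1 ∈ be y ∧ ∃ x ∈ T1, x ∈ eta y)
        (univ.filter fun y => (∃ a ∈ L', a ∈ be y) ∧ ∃ x ∈ T2, x ∈ eta y) := by
      rw [Finset.disjoint_left]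
      intro y hy hy'
      simp only [mem_filter, mem_univ, true_and] at hy hy'
      obtain ⟨x, hx, hxy⟩ := hy'.2
      rw [hT2, mem_filter] at hx
      exact hx.2 (hU a1 y x hy.1 hxy)
    rw [e1]
    refine le_trans (add_le_add c1 c2) ?_
    rw [← Finset.card_union_of_disjoint hd]
    apply Finset.card_le_card
    intro y hy
    rw [mem_union] at hy
    simp only [mem_filter, mem_univ, true_and] at hy ⊢
    rcases hy with ⟨hb, x, hx, hxy⟩ | ⟨⟨a, ha, hay⟩, x, hx, hxy⟩
    · rw [hT1, mem_filter] at hx
      exact ⟨⟨a1, mem_insert_self _ _, hb⟩, x, hx.1, hxy⟩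
    · rw [hT2, mem_filter] at hx
      exact ⟨⟨a, mem_insert_of_mem ha, hay⟩, x, hx.1, hxy⟩

/-- cost of the cut `R` -/
noncomputable def val (al : V → Finset V) (B W S R : Finset V) : ℕ :=
  ((S ∩ B) \ R).card + ((R.biUnion al) ∩ W).card

/-- the rank function (min cut) -/
noncomputable def rho (al : V → Finset V) (B W S : Finset V) : ℕ :=
  ((S ∩ B).powerset).inf' ⟨∅, Finset.empty_mem_powerset _⟩ (val al B W S)

theorem rho_le (al : V → Finset V) (B W S R : Finset V) (hR : R ⊆ S ∩ B) :
    rho al B W S ≤ val al B W S R :=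
  Finset.inf'_le _ (Finset.mem_powerset.mpr hR)

theorem exists_rho (al : V → Finset V) (B W S : Finset V) :
    ∃ R, R ⊆ S ∩ B ∧ rho al B W S = val al B W S R := by
  obtain ⟨R, hR, h⟩ := Finset.exists_mem_eq_inf' (s := (S ∩ B).powerset)
    ⟨∅, Finset.empty_mem_powerset _⟩ (val al B W S)
  exact ⟨R, Finset.mem_powerset.mp hR, h⟩

theorem rho_empty (al : V → Finset V) (B W : Finset V) : rho al B W ∅ = 0 := by
  have := rho_le al B W ∅ ∅ (Finset.empty_subset _)
  simp [val] at this
  exact this

theorem rho_mono (al : V → Finset V) (B W S : Finset V) (a : V) (ha : a ∉ S) :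
    rho al B W S ≤ rho al B W (insert a S) := by
  obtain ⟨R, hR, h⟩ := exists_rho al B W (insert a S)
  rw [h]
  refine le_trans (rho_le al B W S (R.erase a) ?_) ?_
  · intro b hb
    rw [mem_erase] at hb
    have := hR hb.2
    rw [mem_inter, mem_insert] at this
    rw [mem_inter]
    exact ⟨this.1.resolve_left hb.1, this.2⟩
  · unfold val
    apply add_le_add
    · apply Finset.card_le_card
      intro b hb
      rw [mem_sdiff, mem_inter, mem_erase] at hb
      rw [mem_sdiff, mem_inter, mem_insert]
      refine ⟨⟨Or.inr hb.1.1, hb.1.2⟩, fun hbR => hb.2 ⟨?_, hbR⟩⟩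
      rintro rfl
      exact ha hb.1.1
    · apply Finset.card_le_card
      apply Finset.inter_subset_inter_right
      apply Finset.biUnion_subset_biUnion_of_subset_left
      exact Finset.erase_subset _ _

theorem rho_insert_le (al : V → Finset V) (B W S : Finset V) (a : V) :
    rho al B W (insert a S) ≤ rho al B W S + (if a ∈ B then 1 else 0) := by
  obtain ⟨R, hR, h⟩ := exists_rho al B W S
  rw [h]
  refine le_trans (rho_le al B W (insert a S) R ?_) ?_
  · intro b hb
    have := hR hb
    rw [mem_inter] at this ⊢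
    exact ⟨mem_insert_of_mem this.1, this.2⟩
  · unfold val
    have : ((insert a S ∩ B) \ R).card ≤ ((S ∩ B) \ R).card + (if a ∈ B then 1 else 0) := by
      by_cases haB : a ∈ B
      · simp only [haB, if_true]
        refine le_trans (Finset.card_le_card (t := insert a ((S ∩ B) \ R)) ?_)
          (Finset.card_insert_le _ _)
        intro b hb
        rw [mem_sdiff, mem_inter, mem_insert] at hb
        rw [mem_insert, mem_sdiff, mem_inter]
        rcases hb.1.1 with h | h
        · exact Or.inl h
        · exact Or.inr ⟨⟨h, hb.1.2⟩, hb.2⟩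
      · simp only [haB, if_false, add_zero]
        apply Finset.card_le_card
        intro b hb
        rw [mem_sdiff, mem_inter, mem_insert] at hb
        rw [mem_sdiff, mem_inter]
        rcases hb.1.1 with h | h
        · exact absurd (h ▸ hb.1.2) haB
        · exact ⟨⟨h, hb.1.2⟩, hb.2⟩
    omega

/-- The marginal inequality. `B, W` : data of the column `x`; `B', W'` : data of the column `y`;
`b = be y`. -/
theorem marg (al : V → Finset V) (B W B' W' b S : Finset V) (a : V)
    (haS : a ∉ S) (haB : a ∈ B) (haB' : a ∈ B')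
    (h1 : ∀ c ∈ B, ∀ s ∈ al c, s ∈ W' → s ∈ W ∧ s ∈ b)
    (h2 : ∀ s, s ∈ W → s ∈ b → s ∈ W')
    (h3 : ∀ c ∈ B, c ∉ B' → ∀ s ∈ al c, s ∉ b) :
    rho al B' W' (insert a S) + rho al B W S ≤ rho al B W (insert a S) + rho al B' W' S := by
  obtain ⟨R, hR, h⟩ := exists_rho al B W (insert a S)
  by_cases haR : a ∈ R
  · obtain ⟨R2, hR2, hh2⟩ := exists_rho al B' W' S
    set R0 := R.erase a with hR0
    have hR0S : R0 ⊆ S ∩ B := by
      intro c hc
      rw [hR0, mem_erase] at hc
      have := hR hc.2
      rw [mem_inter, mem_insert] at this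
      rw [mem_inter]
      exact ⟨this.1.resolve_left hc.1, this.2⟩
    have hRe : R = insert a R0 := by rw [hR0, Finset.insert_erase haR]
    have k3 := rho_le al B' W' (insert a S) ((R ∩ B') ∪ R2) (by
      intro c hc
      rw [mem_union, mem_inter] at hc
      rw [mem_inter]
      rcases hc with hc | hc
      · have := hR hc.1
        rw [mem_inter] at this
        exact ⟨this.1, hc.2⟩
      · have := hR2 hc
        rw [mem_inter] at this
        exact ⟨mem_insert_of_mem this.1, this.2⟩)
    have k4 := rho_le al B W S ((R0 ∩ R2) ∪ (R0 \ B')) (by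
      intro c hc
      rw [mem_union, mem_inter, mem_sdiff] at hc
      rcases hc with hc | hc
      · exact hR0S hc.1
      · exact hR0S hc.1)
    rw [h, hh2]
    refine le_trans (add_le_add k3 k4) ?_
    unfold val
    -- first parts
    have p1 : ((insert a S ∩ B') \ ((R ∩ B') ∪ R2)).card
        + ((S ∩ B) \ ((R0 ∩ R2) ∪ (R0 \ B'))).card
        ≤ ((insert a S ∩ B) \ R).card + ((S ∩ B') \ R2).card := by
      have q1 : (insert a S ∩ B') \ ((R ∩ B') ∪ R2) = (S ∩ B') \ (R0 ∪ R2) := by
        ext c
        simp only [mem_sdiff, mem_inter, mem_insert, mem_union, hR0, mem_erase]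
        constructor
        · rintro ⟨⟨h1 | h1, h2⟩, h3⟩
          · exact absurd (Or.inl ⟨h1 ▸ haR, h2⟩) h3
          · refine ⟨⟨h1, h2⟩, fun h4 => h3 ?_⟩
            rcases h4 with h4 | h4
            · exact Or.inl ⟨h4.2, h2⟩
            · exact Or.inr h4
        · rintro ⟨⟨h1, h2⟩, h3⟩
          refine ⟨⟨Or.inr h1, h2⟩, fun h4 => h3 ?_⟩
          rcases h4 with h4 | h4
          · refine Or.inl ⟨?_, h4.1⟩
            rintro rfl
            exact haS h1
          · exact Or.inr h4
      have q2 : (S ∩ B) \ ((R0 ∩ R2) ∪ (R0 \ B')) =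
          ((S ∩ B) \ R0) ∪ ((R0 ∩ B') \ R2) := by
        ext c
        simp only [mem_sdiff, mem_inter, mem_union]
        constructor
        · rintro ⟨⟨h1, h2⟩, h3⟩
          by_cases hc : c ∈ R0
          · right
            refine ⟨⟨hc, ?_⟩, fun h4 => h3 (Or.inl ⟨hc, h4⟩)⟩
            by_contra hcB
            exact h3 (Or.inr ⟨hc, hcB⟩)
          · left
            exact ⟨⟨h1, h2⟩, hc⟩
        · rintro (⟨⟨h1, h2⟩, h3⟩ | ⟨⟨h1, h2⟩, h3⟩)
          · refine ⟨⟨h1, h2⟩, ?_⟩
            rintro (h4 | h4)
            · exact h3 h4.1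
            · exact h3 h4.1
          · have := hR0S h1
            rw [mem_inter] at this
            refine ⟨this, ?_⟩
            rintro (h4 | h4)
            · exact h3 h4.2
            · exact h4.2 h2
      have q3 : (insert a S ∩ B) \ R = (S ∩ B) \ R0 := by
        ext c
        simp only [mem_sdiff, mem_inter, mem_insert, hR0, mem_erase]
        constructor
        · rintro ⟨⟨h1 | h1, h2⟩, h3⟩
          · exact absurd (h1 ▸ haR) h3
          · exact ⟨⟨h1, h2⟩, fun h4 => h3 h4.2⟩
        · rintro ⟨⟨h1, h2⟩, h3⟩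
          refine ⟨⟨Or.inr h1, h2⟩, fun h4 => h3 ⟨?_, h4⟩⟩
          rintro rfl
          exact haS h1
      have q4 : ((S ∩ B') \ (R0 ∪ R2)).card + ((R0 ∩ B') \ R2).card ≤
          ((S ∩ B') \ R2).card := by
        rw [← Finset.card_union_of_disjoint]
        · apply Finset.card_le_card
          intro c hc
          simp only [mem_sdiff, mem_inter, mem_union] at hc ⊢
          rcases hc with ⟨⟨h1, h2⟩, h3⟩ | ⟨⟨h1, h2⟩, h3⟩
          · exact ⟨⟨h1, h2⟩, fun h4 => h3 (Or.inr h4)⟩
          · have := hR0S h1
            rw [mem_inter] at this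
            exact ⟨⟨this.1, h2⟩, h3⟩
        · rw [Finset.disjoint_left]
          intro c hc hc'
          simp only [mem_sdiff, mem_inter, mem_union] at hc hc'
          exact hc.2 (Or.inl hc'.1.1)
      rw [q1, q2, q3]
      have q5 := Finset.card_union_le ((S ∩ B) \ R0) ((R0 ∩ B') \ R2)
      omega
    have p2 : ((((R ∩ B') ∪ R2).biUnion al) ∩ W').card +
        ((((R0 ∩ R2) ∪ (R0 \ B')).biUnion al) ∩ W).card ≤
        ((R.biUnion al) ∩ W).card + ((R2.biUnion al) ∩ W').card := by
      -- N_y(R3) = (N_x(R) ∩ b) ∪ N_y(R2)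
      have r1 : (((R ∩ B') ∪ R2).biUnion al) ∩ W' ⊆
          ((((R.biUnion al) ∩ W) ∩ b) \ ((R2.biUnion al) ∩ W')) ∪ ((R2.biUnion al) ∩ W') := by
        intro s hs
        simp only [mem_inter, mem_biUnion, mem_union, mem_sdiff] at hs ⊢
        obtain ⟨⟨c, hc, hcs⟩, hsW⟩ := hs
        by_cases hq : (∃ c ∈ R2, s ∈ al c) ∧ s ∈ W'
        · exact Or.inr hq
        · left
          rcases hc with hc | hc
          · have hcB : c ∈ B := (mem_inter.mp (hR hc.1)).2
            have := h1 c hcB s hcs hsW
            exact ⟨⟨⟨⟨c, hc.1, hcs⟩, this.1⟩, this.2⟩, hq⟩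
          · exact absurd ⟨⟨c, hc, hcs⟩, hsW⟩ hq
      have r2 : (((R0 ∩ R2) ∪ (R0 \ B')).biUnion al) ∩ W ⊆
          ((R.biUnion al) ∩ W) \ ((((R.biUnion al) ∩ W) ∩ b) \ ((R2.biUnion al) ∩ W')) := by
        intro s hs
        simp only [mem_inter, mem_biUnion, mem_union, mem_sdiff] at hs ⊢
        obtain ⟨⟨c, hc, hcs⟩, hsW⟩ := hs
        have hcR0 : c ∈ R0 := by
          rcases hc with hc | hc
          · exact hc.1
          · exact hc.1
        have hcR : c ∈ R := by
          rw [hR0, mem_erase] at hcR0
          exact hcR0.2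
        refine ⟨⟨⟨c, hcR, hcs⟩, hsW⟩, ?_⟩
        rintro ⟨⟨_, hsb⟩, hn⟩
        rcases hc with hc | hc
        · exact hn ⟨⟨c, hc.2, hcs⟩, h2 s hsW hsb⟩
        · exact h3 c (mem_inter.mp (hR hcR)).2 hc.2 s hcs hsb
      have r3 : ((((R.biUnion al) ∩ W) ∩ b) \ ((R2.biUnion al) ∩ W')) ⊆ (R.biUnion al) ∩ W := by
        intro s hs
        rw [mem_sdiff, mem_inter] at hs
        exact hs.1.1
      have s1 := Finset.card_le_card r1
      have s2 := Finset.card_le_card r2
      have s3 := Finset.card_union_le
        ((((R.biUnion al) ∩ W) ∩ b) \ ((R2.biUnion al) ∩ W')) ((R2.biUnion al) ∩ W')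
      have s4 := Finset.card_sdiff_add_card_eq_card r3
      omega
    omega
  · -- `a ∉ R`
    have k1 := rho_insert_le al B' W' S a
    rw [if_pos haB'] at k1
    have hRS : R ⊆ S ∩ B := by
      intro c hc
      have := hR hc
      rw [mem_inter, mem_insert] at this
      rw [mem_inter]
      refine ⟨this.1.resolve_left ?_, this.2⟩
      rintro rfl
      exact haR hc
    have k2 := rho_le al B W S R hRS
    have k3 : val al B W (insert a S) R = val al B W S R + 1 := by
      unfold val
      have : (insert a S ∩ B) \ R = insert a ((S ∩ B) \ R) := by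
        ext c
        simp only [mem_sdiff, mem_inter, mem_insert]
        constructor
        · rintro ⟨⟨h1 | h1, h2⟩, h3⟩
          · exact Or.inl h1
          · exact Or.inr ⟨⟨h1, h2⟩, h3⟩
        · rintro (h1 | ⟨⟨h1, h2⟩, h3⟩)
          · subst h1
            exact ⟨⟨Or.inl rfl, haB⟩, haR⟩
          · exact ⟨⟨Or.inr h1, h2⟩, h3⟩
      rw [this, Finset.card_insert_of_notMem]
      · omega
      · simp only [mem_sdiff, mem_inter]
        rintro ⟨⟨h1, _⟩, _⟩
        exact haS h1
    omega

section
variable (al xi be eta : V → Finset V) (M P : V → V → Prop)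

/-- gap column -/
noncomputable def Gc (x : V) : Finset V := univ.filter fun a => M a x ∧ ¬ P a x

noncomputable def Gl (x : V) : Finset V :=
  univ.filter fun a' => x ∈ xi a' ∧ ∃ a ∈ al a', M a x ∧ ¬ P a x

noncomputable def Gr (y : V) : Finset V :=
  univ.filter fun a => a ∈ be y ∧ ∃ x ∈ eta y, M a x ∧ ¬ P a x

noncomputable def Kc (y : V) : Finset V :=
  univ.filter fun a' => (∃ a ∈ al a', a ∈ be y) ∧ ∃ x ∈ xi a', x ∈ eta y

/-- **The star lemma** (unit weights). -/
theorem star (h1 : ∀ a' x a, x ∈ xi a' → a ∈ al a' → M a x)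
    (h2 : ∀ a y x, a ∈ be y → x ∈ eta y → ¬ P a x)
    (hH : ∀ a (T : Finset V), (∀ x ∈ T, M a x ∧ ¬ P a x) →
      T.card ≤ (univ.filter fun y => a ∈ be y ∧ ∃ x ∈ T, x ∈ eta y).card)
    (hV : ∀ x (S : Finset V), (∀ a ∈ S, M a x ∧ ¬ P a x) →
      S.card ≤ (univ.filter fun a' => x ∈ xi a' ∧ ∃ a ∈ S, a ∈ al a').card) :
    ∑ x, (Gl al xi M P x).card + ∑ y, (Gr be eta M P y).card ≤
      ∑ x, (Gc M P x).card + ∑ y, (Kc al xi be eta y).card := by
  -- merged Hall for rows
  have hH' : ∀ a' (T : Finset V), (∀ x ∈ T, a' ∈ Gl al xi M P x) →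
      T.card ≤ (univ.filter fun y => (∃ a ∈ al a', a ∈ be y) ∧ ∃ x ∈ T, x ∈ eta y).card := by
    intro a' T hT
    apply merged be eta (fun a x => ¬ P a x) (fun a x => M a x) h2
    · intro a T hT
      exact hH a T fun x hx => ⟨(hT x hx).2, (hT x hx).1⟩
    · intro x hx
      have := hT x hx
      simp only [Gl, mem_filter, mem_univ, true_and] at this
      obtain ⟨_, a, ha, _, hP⟩ := this
      exact ⟨a, ha, hP⟩
    · intro x hx a ha
      have := hT x hx
      simp only [Gl, mem_filter, mem_univ, true_and] at this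
      exact h1 a' x a this.1 ha
  -- merged Hall for columns
  have hV' : ∀ y (S : Finset V), (∀ a ∈ S, a ∈ Gr be eta M P y) →
      S.card ≤ (univ.filter fun a' => (∃ x ∈ eta y, x ∈ xi a') ∧ ∃ a ∈ S, a ∈ al a').card := by
    intro y S hS
    apply merged xi al (fun x a => M a x) (fun x a => ¬ P a x)
      (fun x a' a hx ha => h1 a' x a hx ha)
    · intro x S hS
      exact hV x S fun a ha => ⟨(hS a ha).1, (hS a ha).2⟩
    · intro a ha
      have := hS a ha
      simp only [Gr, mem_filter, mem_univ, true_and] at this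
      obtain ⟨_, x, hx, hM, _⟩ := this
      exact ⟨x, hx, hM⟩
    · intro a ha x hx
      have := hS a ha
      simp only [Gr, mem_filter, mem_univ, true_and] at this
      exact h2 a y x this.1 hx
  -- the rank functions
  set r : V → Finset V → ℕ := fun x S => rho al (Gl al xi M P x) (Gc M P x) S with hr
  set r' : V → Finset V → ℕ := fun y S => rho al (Kc al xi be eta y) (Gr be eta M P y) S with hr'
  have hmarg : ∀ (S : Finset V) (a' x y : V), a' ∉ S → a' ∈ Gl al xi M P x → x ∈ eta y →
      (∃ a ∈ al a', a ∈ be y) → r' y (insert a' S) + r x S ≤ r x (insert a' S) + r' y S := by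
    intro S a' x y haS ha' hxy hab
    have hxa' : x ∈ xi a' := by
      simp only [Gl, mem_filter, mem_univ, true_and] at ha'
      exact ha'.1
    apply marg al _ _ _ _ (be y) S a' haS ha'
    · simp only [Kc, mem_filter, mem_univ, true_and]
      exact ⟨hab, x, hxa', hxy⟩
    · intro c hc s hs hsW
      simp only [Gl, Gc, Gr, mem_filter, mem_univ, true_and] at hc hsW ⊢
      exact ⟨⟨h1 c x s hc.1 hs, h2 s y x hsW.1 hxy⟩, hsW.1⟩
    · intro s hsW hsb
      simp only [Gc, Gr, mem_filter, mem_univ, true_and] at hsW ⊢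
      exact ⟨hsb, x, hxy, hsW⟩
    · intro c hc hcK s hs hsb
      apply hcK
      simp only [Gl, Kc, mem_filter, mem_univ, true_and] at hc ⊢
      exact ⟨⟨s, hs, hsb⟩, x, hc.1, hxy⟩
  -- induction
  have key : ∀ S : Finset V,
      ∑ x, (S ∩ Gl al xi M P x).card + ∑ y, r' y S ≤
        ∑ y, (S ∩ Kc al xi be eta y).card + ∑ x, r x S := by
    intro S
    induction S using Finset.induction_on with
    | empty =>
      simp [hr, hr', rho_empty]
    | insert a' S haS ih =>
      have e1 : ∀ B : V → Finset V, ∑ x, ((insert a' S) ∩ B x).card =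
          ∑ x, (S ∩ B x).card + ∑ x, (if a' ∈ B x then 1 else 0) := by
        intro B
        rw [← Finset.sum_add_distrib]
        apply Finset.sum_congr rfl
        intro x _
        by_cases hB : a' ∈ B x
        · rw [if_pos hB, Finset.insert_inter_of_mem hB, Finset.card_insert_of_notMem]
          intro h
          exact haS (mem_inter.mp h).1
        · rw [if_neg hB, Finset.insert_inter_of_notMem hB]
          rfl
      rw [e1, e1]
      -- the step
      have hm : ∀ x, r x S ≤ r x (insert a' S) := fun x => rho_mono _ _ _ _ _ haS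
      have hm' : ∀ y, r' y (insert a' S) ≤ r' y S +
          (if a' ∈ Kc al xi be eta y then 1 else 0) := fun y => rho_insert_le _ _ _ _ _
      set T : Finset V := univ.filter fun x => a' ∈ Gl al xi M P x ∧ r x (insert a' S) = r x S
        with hT
      have hTc := hH' a' T (by
        intro x hx
        rw [hT, mem_filter] at hx
        exact hx.2.1)
      set Z : Finset V := univ.filter fun y => (∃ a ∈ al a', a ∈ be y) ∧ ∃ x ∈ T, x ∈ eta y
        with hZ
      have sx : ∑ x, (if a' ∈ Gl al xi M P x then 1 else 0) + ∑ x, r x S ≤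
          T.card + ∑ x, r x (insert a' S) := by
        have : T.card = ∑ x, (if x ∈ T then 1 else 0) := by simp
        rw [this, ← Finset.sum_add_distrib, ← Finset.sum_add_distrib]
        apply Finset.sum_le_sum
        intro x _
        have h1 := hm x
        by_cases hG : a' ∈ Gl al xi M P x
        · by_cases he : r x (insert a' S) = r x S
          · have : x ∈ T := by
              rw [hT, mem_filter]
              exact ⟨mem_univ _, hG, he⟩
            rw [if_pos hG, if_pos this]
            omega
          · rw [if_pos hG]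
            omega
        · rw [if_neg hG]
          omega
      have sy : Z.card + ∑ y, r' y (insert a' S) ≤
          ∑ y, (if a' ∈ Kc al xi be eta y then 1 else 0) + ∑ y, r' y S := by
        have : Z.card = ∑ x, (if x ∈ Z then 1 else 0) := by simp
        rw [this, ← Finset.sum_add_distrib, ← Finset.sum_add_distrib]
        apply Finset.sum_le_sum
        intro y _
        by_cases hy : y ∈ Z
        · have hy2 := hy
          rw [hZ, mem_filter] at hy2
          obtain ⟨_, hab, x, hxT, hxy⟩ := hy2
          rw [hT, mem_filter] at hxT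
          have hmm := hmarg S a' x y haS hxT.2.1 hxy hab
          have hxa' : x ∈ xi a' := by
            have := hxT.2.1
            simp only [Gl, mem_filter, mem_univ, true_and] at this
            exact this.1
          have hK : a' ∈ Kc al xi be eta y := by
            simp only [Kc, mem_filter, mem_univ, true_and]
            exact ⟨hab, x, hxa', hxy⟩
          rw [if_pos hy, if_pos hK]
          have := hxT.2.2
          omega
        · rw [if_neg hy]
          have := hm' y
          omega
      omega
  have kk := key univ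
  simp only [Finset.univ_inter] at kk
  have u1 : ∑ x, r x univ ≤ ∑ x, (Gc M P x).card := by
    apply Finset.sum_le_sum
    intro x _
    refine le_trans (rho_le al _ _ univ (Gl al xi M P x) ?_) ?_
    · rw [Finset.univ_inter]
    · unfold val
      rw [Finset.univ_inter, Finset.sdiff_self, Finset.card_empty, zero_add]
      exact Finset.card_le_card Finset.inter_subset_right
  have u2 : ∑ y, (Gr be eta M P y).card ≤ ∑ y, r' y univ := by
    apply Finset.sum_le_sum
    intro y _
    obtain ⟨R, hR, h⟩ := exists_rho al (Kc al xi be eta y) (Gr be eta M P y) univ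
    rw [Finset.univ_inter] at hR
    simp only [hr']
    rw [h]
    unfold val
    rw [Finset.univ_inter]
    have := hV' y ((Gr be eta M P y) \ (R.biUnion al)) (by
      intro a ha
      rw [mem_sdiff] at ha
      exact ha.1)
    have c1 : (univ.filter fun a' => (∃ x ∈ eta y, x ∈ xi a') ∧
        ∃ a ∈ (Gr be eta M P y) \ (R.biUnion al), a ∈ al a').card ≤
        (Kc al xi be eta y \ R).card := by
      apply Finset.card_le_card
      intro a' ha'
      simp only [mem_filter, mem_univ, true_and, mem_sdiff, mem_biUnion, not_exists, not_and,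
        Kc] at ha' ⊢
      obtain ⟨⟨x, hx, hx'⟩, a, ⟨ha1, ha2⟩, ha3⟩ := ha'
      refine ⟨⟨⟨a, ha3, ?_⟩, x, hx', hx⟩, fun hR' => ha2 a' hR' ha3⟩
      simp only [Gr, mem_filter, mem_univ, true_and] at ha1
      exact ha1.1
    have c2 : (Gr be eta M P y).card =
        ((Gr be eta M P y) \ (R.biUnion al)).card +
          ((R.biUnion al) ∩ (Gr be eta M P y)).card := by
      rw [Finset.inter_comm, Finset.card_sdiff_add_card_inter]
    omega
  omega

end

end Vale.Agent.P038.S476
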